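import Vale.Agent.P354GT.Uq
import Vale.Agent.P354V.Main

/-!
The time shift; GOODT.
-/

open scoped ContDiff
open Set Filter Topology

noncomputable section

namespace Vale.Agent.P354GT

open Vale.Agent.P354n (R4 cu cv co inv On IsIsom)
open Vale.Agent.P354C Vale.Agent.P354C.Ix
open Vale.Agent.P354H (X3 e)
open Vale.Agent.P354P
open Vale.Agent.P354I (Strip r2 IndAt GOODT NoExt)

variable {δ δ' t a b : ℝ} {C C' : Bool → ℕ → R4 → ℝ}

/-- The shift of the time by t. -/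
def kap (c : ℝ) (p : Pt) : Pt := (Real.log (Real.exp p.1 + c), p.2)

lemma kap_emb {c : ℝ} (hc : 0 ≤ c) : IsOpenEmbedding (kap c) ∧ ∀ p : Pt, c < Real.exp p.1 →
    p ∈ range (kap c) := by
  have p0 : ∀ x, 0 < Real.exp x + c := fun x => by positivity
  have r : ∀ x, c < Real.exp x → Real.log (Real.exp (Real.log (Real.exp x - c)) + c) = x :=
    fun x hx => by rw [Real.exp_log (sub_pos.2 hx), sub_add_cancel, Real.log_exp]
  refine ⟨IsOpenEmbedding.prodMap (OpenPartialHomeomorph.isOpenEmbedding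
    ⟨⟨⟨fun x => Real.log (Real.exp x + c), fun x => Real.log (Real.exp x - c), univ,
      {x | c < Real.exp x}, fun x _ => ?_, fun _ _ => trivial, fun x _ => ?_, r⟩,
      (Continuous.log (by fun_prop) fun x => (p0 x).ne').continuousOn,
      ContinuousOn.log (by fun_prop) fun x hx => (sub_pos.2 hx).ne'⟩, isOpen_univ,
      isOpen_lt continuous_const Real.continuous_exp⟩ rfl) .id,
    fun p hp => ⟨(Real.log (Real.exp p.1 - c), p.2), Prod.ext (r _ hp) rfl⟩⟩
  · show c < Real.exp (Real.log _)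
    rw [Real.exp_log (p0 x)]
    linarith [Real.exp_pos x]
  · simp only [Real.exp_log (p0 x), add_sub_cancel_right, Real.log_exp]

lemma bs_kap (h : δ' ≤ δ + t) (σ : Bool) (p : Pt) :
    bs δ σ (kap (δ + t - δ') p) = bs δ' σ p + (t, t, 0) := by
  have : Real.exp (Real.log (Real.exp p.1 + (δ + t - δ'))) = Real.exp p.1 + (δ + t - δ') :=
    Real.exp_log (by linarith [Real.exp_pos p.1])
  simp only [bs, kap, this, Prod.mk_add_mk, add_zero]
  exact Prod.ext (by simp only; ring) (Prod.ext (by simp only; ring) rfl)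

/-- The chart c composed with the shift. -/
def chS (c : Ch δ) (δ' t : ℝ) : Ch δ' :=
  ⟨c.σ, ((Homeomorph.addRight ((t, t, 0) : R4)).toOpenPartialHomeomorph.restrOpen (Dm δ')
    (isOpen_Dm δ')).trans c.ξ,
    c.sm.comp (contDiff_id.add contDiff_const).contDiffOn fun _ k => k.2,
    (c.sm'.mono inter_subset_left).add contDiffOn_const, fun _ k => k.1.2⟩

theorem noext_shift (h : IsDN δ C) (h' : IsDN δ' C') (ht : δ' ≤ δ + t)
    (e : ∀ σ i, ∀ y ∈ Dm δ', C σ i (y + (t, t, 0)) = C' σ i y) (H : NoExt (sp δ' C')) :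
    NoExt (sp δ C) := by
  obtain ⟨k1, k2⟩ := kap_emb (c := δ + t - δ') (by linarith)
  have : SecondCountableTopology (sp δ C).pt := inferInstanceAs (SecondCountableTopology Pt)
  refine P354V.inherit (fun f D hf => hf.continuousOn) (isSpacetime h') (isSpacetime h) k1 ?_
    (fun a H hl => ?_) H
  · intro (c : Ch δ') (c' : Ch δ) T hT y hy hon
    have e0 : ∀ p, co (M := sp δ C) c' (kap (δ + t - δ') p) = co (M := sp δ' C') (chS c' δ' t) p :=
      fun p => by rw [co_eq, bs_kap ht]; rfl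
    have o := In.of_on hon
    have m : bs δ' c'.σ (inv (M := sp δ' C') c y) ∈ Dm δ' := bs_mem _ _ _ o.2
    have m' : bs δ' c'.σ (inv (M := sp δ' C') c y) + (t, t, 0) ∈ c'.ξ.source := bs_kap ht _ _ ▸ hon.2
    have e1 : c'.ξ.symm (T y) = bs δ' c'.σ (inv (M := sp δ' C') c y) + (t, t, 0) := by
      rw [← c'.ξ.left_inv m', hT]
      exact congrArg (fun z => c'.ξ.symm (c'.ξ z)) (bs_kap ht _ _)
    have e2 : (chS c' δ' t).ξ.symm (T y) = bs δ' c'.σ (inv (M := sp δ' C') c y) := by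
      show c'.ξ.symm (T y) + -(t, t, 0) = _
      rw [e1, add_neg_cancel_right]
    have e3 : ∀ v w, (sp δ C).g c' (T y) v w = (sp δ' C').g (chS c' δ' t) (T y) v w := fun v w => by
      rw [g_eq, g_eq, e1, e2, show fderiv ℝ (chS c' δ' t).ξ.symm (T y) = fderiv ℝ c'.ξ.symm (T y) from
        fderiv_add_const _]
      simp only [bil, P354n.h1, P354n.h2, e _ _ _ m]
      rfl
    have e4 : (sp δ C).X c' (T y) = (sp δ' C').X (chS c' δ' t) (T y) := by
      rw [X_eq, X_eq, e1, e2, show fderiv ℝ (chS c' δ' t).ξ (bs δ' c'.σ (inv (M := sp δ' C') c y)) =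
        fderiv ℝ c'.ξ _ from fderiv_comp_add_right _]
      simp only [X0, e _ _ _ m]
      rfl
    simp only [e3, e4]
    exact (isSpacetime h').tensor c (chS c' δ' t) T (hT.trans (funext fun y => e0 _)) y hy
      ⟨o.1, ⟨trivial, m⟩, m'⟩
  obtain ⟨mu, mv⟩ := uv_mono h H Subset.rfl
  have hn : ∀ t ∈ Ioo (0 : ℝ) 1, Ioo (0 : ℝ) 1 ∈ 𝓝 t := fun t ht => Ioo_mem_nhds ht.1 ht.2
  have m0 : (1 / 2 : ℝ) ∈ Ioo (0 : ℝ) 1 := by norm_num
  by_contra! k
  obtain ⟨x, hx⟩ := lim_of (b := a) (A := |uu δ (a (1 / 2))| + |vv δ (a (1 / 2))| + 2 * |t - δ'|) h m0.2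
    (mul_one 1) (tau_gt δ (a (1 / 2))) fun s hs => by
      have hs' : s ∈ Ioo (0 : ℝ) 1 := ⟨m0.1.trans hs.1, hs.2⟩
      have b1 := mu m0 hs' hs.1
      have b2 := mv m0 hs' hs.1
      have b3 : uu δ (a s) + vv δ (a s) ≤ 2 * (t - δ') := by
        simp only [uu, vv]
        linarith [not_lt.1 (mt (k2 (a s)) (k s hs'))]
      have a1 := abs_le.1 (le_refl |uu δ (a (1 / 2))|)
      have a2 := abs_le.1 (le_refl |vv δ (a (1 / 2))|)
      have a3 := abs_le.1 (le_refl |t - δ'|)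
      exact ⟨H.1.continuousAt (hn s hs'), abs_le.2 ⟨by linarith, by linarith⟩,
        abs_le.2 ⟨by linarith, by linarith⟩, by linarith,
        fun σ k' => by simpa only [one_smul] using vel_of_curve h H (hn s hs') k'⟩
  exact (hl x).1 hx

/-- The shifted fields. -/
def sf (t : ℝ) (U : Bool → R4 → Ix → ℝ) (σ : Bool) (p : R4) : Ix → ℝ := U σ (p.1 - t, p.2)

variable {U V : Bool → R4 → Ix → ℝ} {d : P354I.Dat}

lemma dfr_sf (σ : Bool) (p : R4) : dfr (sf t U σ) p = dfr (U σ) (p.1 - t, p.2) := by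
  funext k i
  have e : ∀ z : R4, ((z.1 - t, z.2) : R4) = z - (t, 0) := fun z => Prod.ext rfl (sub_zero _).symm
  simp only [dfr, sf, e]
  rw [fderiv_comp_sub (f := fun z => U σ z i)]

lemma fu_sf (h : Glob d δ U) (σ : Bool) : Fu (sf t U σ) {p | t - δ < p.1 ∧ rr p < 4} :=
  ⟨fun i => (h.sm σ i).comp (f := fun p : R4 => ((p.1 - t, p.2) : R4)) (by fun_prop)
    fun p hp => ⟨show -δ < p.1 - t by linarith [hp.1], hp.2⟩, fun p hp =>
      dfr_sf σ p ▸ h.full σ (p.1 - t, p.2) ⟨show -δ < p.1 - t by linarith [hp.1], hp.2⟩⟩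

lemma compat_sf (h : Glob d δ U) (σ : Bool) {p : R4} (h1 : t - δ < p.1) (h2 : rr p < 4)
    (h3 : 1 / 4 < rr p) (v w : R4) : met (sf t U σ) p v w =
      met (sf t U (!σ)) (flip p) (fderiv ℝ flip p v) (fderiv ℝ flip p w) := by
  have r : rr p ≠ 0 := by linarith [h3] |> fun k : 0 < rr p => k.ne'
  have := h.compat σ (p.1 - t, p.2) ⟨show -δ < p.1 - t by linarith, h2⟩ h3 v w
  rw [fderiv_flip (y := (p.1 - t, p.2)) r, fderiv_flip (y := (p.1 - t, p.2)) r] at this
  rw [fderiv_flip r, fderiv_flip r]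
  exact this

lemma noext_of {d' : P354I.Dat} (h : Glob d δ V) (h' : Glob d' δ' U) (ht : δ' ≤ δ + t)
    (e : ∀ σ (p : R4), t - δ' < p.1 → rr p < 4 → cfu (V σ p) = cfu (sf t U σ p))
    (H : NoExt (sp δ' (coef U))) : NoExt (sp δ (coef V)) := by
  refine noext_shift h.isDN h'.isDN ht (fun σ i y hy => ?_) H
  have k : uv.symm (y + (t, t, 0)) = ((uv.symm y).1 + t, (uv.symm y).2) := by
    rw [map_add]
    exact Prod.ext (by show _ + (t + t) / 2 = _; ring) (Prod.ext (by show _ + (t - t) / 2 = _; ring)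
      (add_zero _))
  have m := mem_Dm.1 hy
  rw [coef, k, e σ ((uv.symm y).1 + t, (uv.symm y).2) (by linarith [m.1]) m.2, coef, sf,
    add_sub_cancel_right]

theorem goodt : GOODT := by
  rintro t d d' t0 - ⟨a, b, U, a1, a2, hU, i0, i1⟩ ⟨δ', U', G, H⟩
  simp only [lt_min_iff, max_lt_iff] at a1 a2
  have p0 := G.pos
  have F := fu_sf (t := t) G
  have i2 : IndAt (sf t U') t d' := fun σ z hz => by simpa only [sf, sub_self] using G.ind σ z hz
  have hU1 := mono hU (le_max_left a (t - δ')) le_rfl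
  have sub : St (max a (t - δ')) b ⊆ {p | t - δ' < p.1 ∧ rr p < 4} := fun p hp =>
    ⟨(le_max_right _ _).trans_lt hp.1.1, hp.2⟩
  have hV : Strip (max a (t - δ')) b (sf t U') := ⟨fun σ => ((F σ).mono sub).1,
    fun σ p k k' => (F σ).2 p (sub ⟨k, k'⟩), fun σ p k k' => compat_sf G σ (sub ⟨k, k'⟩).1 k'⟩
  have tm : t ∈ Ioo (max a (t - δ')) b := ⟨max_lt a1.2 (by linarith), a2.2⟩
  have ag := fun τ (k : τ ∈ Ioo (max a (t - δ')) b) σ z (hz : r2 z < 4) =>
    gu hU1 hV tm (ag_ind i1 i2) k σ hz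
  rcases lt_or_ge t δ' with c | c
  · have G' : Glob d (δ' - t) (sf t U') := ⟨sub_pos.2 c, fun σ i => by
      simpa only [Dt, neg_sub] using (F σ).1 i, fun σ p hp => (F σ).2 p ⟨by linarith [hp.1], hp.2⟩,
      ind_ag i0 fun σ z hz i j => (ag 0 ⟨max_lt a1.1 (by linarith), a2.1⟩ σ z hz i j).imp .symm .symm,
      fun σ p hp => compat_sf G σ (by linarith [hp.1]) hp.2⟩
    exact ⟨_, _, G', noext_of G' G (by linarith) (fun _ _ _ _ => rfl) H⟩
  have o : IsOpen {p : R4 | t - δ' < p.1 ∧ rr p < 4} :=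
    (isOpen_lt continuous_const continuous_fst).and (isOpen_lt rr_smooth.continuous continuous_const)
  have w := fun σ => wr (t := t) o (F σ) (fu hU1 σ) (fu hV σ) (fun p hp => ⟨tm, hp.2⟩)
    fun p hp => ag t tm σ _ hp.2
  obtain ⟨V, hV'⟩ : ∃ V : Bool → R4 → Ix → ℝ,
    V = fun σ p => if p.1 ≤ t then U σ p else Wr (U σ) (sf t U' σ) t p := ⟨_, rfl⟩
  have l : ∀ σ (p : R4), p.1 ≤ t → V σ p = U σ p := fun σ p k => by simp only [hV', if_pos k]
  have r : ∀ σ (p : R4), t < p.1 → V σ p = Wr (U σ) (sf t U' σ) t p := fun σ p k => by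
    simp only [hV', if_neg k.not_ge]
  have cf : ∀ σ (p : R4), t - δ' < p.1 → rr p < 4 → cfu (V σ p) = cfu (sf t U' σ p) :=
    fun σ p k k' => by
      rcases le_or_gt p.1 t with j | j
      · have m : p.1 ∈ Ioo (max a (t - δ')) b := ⟨max_lt (by linarith [a1.1]) k, j.trans_lt a2.2⟩
        rw [l σ p j]
        exact cfu_of_hf (hU1.full σ p m k').1.ne' (hU1.full σ p m k').2.1
          fun i j => (ag _ m σ p.2 k' i j).1
      · rw [r σ p j, (w σ).2 p ⟨k, k'⟩]
  have key : ∀ σ, ∀ p ∈ Dt (-a) 4, ∃ W D, IsOpen D ∧ p ∈ D ∧ Fu W D ∧ V σ =ᶠ[𝓝 p] W := by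
    intro σ p hp
    have hp1 : a < p.1 := neg_neg a ▸ hp.1
    rcases lt_trichotomy p.1 t with j | j | j
    · exact ⟨_, _, isOpen_St a b, ⟨⟨hp1, j.trans a2.2⟩, hp.2⟩, fu hU σ,
        (continuous_fst.continuousAt.eventually_lt_const j).mono fun q k => l σ q k.le⟩
    · obtain ⟨ρ, ρ1, ρ2⟩ := exists_between hp.2
      obtain ⟨T, T0, hT⟩ := step (N := |p.2.1| + 1) (fu hU1 σ) (fu hV σ) tm ρ2
        fun z hz _ => ag t tm σ z hz
      refine ⟨_, _, isOpen_St a b, ⟨⟨hp1, j ▸ a2.2⟩, hp.2⟩, fu hU σ, ?_⟩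
      filter_upwards [ContinuousAt.eventually_lt (f := fun q : R4 => |q.1 - t|) (by fun_prop)
        continuousAt_const (show |p.1 - t| < T by simpa [j]), ContinuousAt.eventually_lt (f := fun q : R4 => |q.2.1|)
        (g := fun q : R4 => |p.2.1| + 1 - |q.1 - t|) (by fun_prop) (by fun_prop) (by simp [j]),
        rr_smooth.continuous.continuousAt.eventually_lt_const ρ1] with q q1 q2 q3
      rcases le_or_gt q.1 t with k | k
      exacts [l σ q k, (r σ q k).trans (hT q q1 q2 q3).1.symm]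
    · exact ⟨_, _, o, ⟨by linarith, hp.2⟩, (w σ).1,
        (continuous_fst.continuousAt.eventually_const_lt j).mono fun q k => r σ q k⟩
  have G' : Glob d (-a) V := by
    refine ⟨neg_pos.2 a1.1, fun σ i p hp => ?_, fun σ p hp => ?_,
      fun σ z hz => (l σ (0, z) t0).symm ▸ i0 σ z hz, fun σ p hp k v w => ?_⟩
    · obtain ⟨W, D, k1, k2, k3, k4⟩ := key σ p hp
      exact (((k3.1 i).contDiffAt (k1.mem_nhds k2)).congr_of_eventuallyEq
        (k4.mono fun q k => congrFun k i)).contDiffWithinAt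
    · obtain ⟨W, D, k1, k2, k3, k4⟩ := key σ p hp
      rw [show dfr (V σ) p = dfr W p from funext₂ fun k i => by
        rw [dfr, dfr, k4.self_of_nhds, EventuallyEq.fderiv_eq (k4.mono fun q k => congrFun k i)],
        k4.self_of_nhds]
      exact k3.2 p k2
    · rcases le_or_gt p.1 t with j | j
      · rw [met, met, l σ p j, l (!σ) (flip p) j]
        exact hU.compat σ p ⟨neg_neg a ▸ hp.1, j.trans_lt a2.2⟩ hp.2 k v w
      · rw [met_cfu (cf σ p (by linarith) hp.2), met_cfu (cf (!σ) (flip p) (show _ < p.1 by linarith) (by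
          rw [rr_flip, inv_lt_comm₀ (by linarith) four_pos]; linarith))]
        exact compat_sf G σ (by linarith) hp.2 k v w
  exact ⟨_, _, G', noext_of G' G (by linarith [a1.1]) cf H⟩

end Vale.Agent.P354GT
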