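import Vale.Agent.P354P.Main
import Vale.Agent.P354I.Core2

/-!
Rotation of the angular frame.
-/

open scoped ContDiff
open Set Filter Topology

noncomputable section

namespace Vale.Agent.P354GT

open Vale.Agent.P354n (R4 IsConn)
open Vale.Agent.P354C Vale.Agent.P354C.Ix
open Vale.Agent.P354H (X3 e sl)
open Vale.Agent.P354J (hf Kf nU dsl)
open Vale.Agent.P354P
open Vale.Agent.P354R (Met Vac Pull chr)
open Vale.Agent.P354RC (k2)

variable {u u' : Ix → ℝ} {R : R4} {U V W : R4 → Ix → ℝ} {p : R4} {D : Set R4}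

lemma met_cfu (h : cfu (U p) = cfu (V p)) : met U p = met V p := by
  funext a b
  have k := fun W : R4 → Ix → ℝ => bil_coef (U := fun _ _ => W p) (σ := true) (y := 0) (uv a) (uv b)
  simp only [uv.symm_apply_apply] at k
  refine (k U).symm.trans (Eq.trans ?_ (k V))
  show bil (fun i _ => cfu (U p) i) _ _ _ = bil (fun i _ => cfu (V p) i) _ _ _
  rw [h]

lemma cfu_det (h : detP u ≠ 0) : 4 * (cfu u 0 * cfu u 2) - cfu u 1 ^ 2 = 4 * u O ^ 4 / detP u ^ 2 := by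
  simp only [cfu]
  field_simp
  rw [detP]
  ring

lemma hf_cfu (u : Ix → ℝ) : hf u (e 1) (e 1) = cfu u 0 ∧ hf u (e 1) (e 2) = cfu u 1 / 2 ∧
    hf u (e 2) (e 2) = cfu u 2 ∧ hf u (e 0) (e 1) = -(cfu u 0 * cfu u 4 + cfu u 1 / 2 * cfu u 5) ∧
    hf u (e 0) (e 2) = -(cfu u 1 / 2 * cfu u 4 + cfu u 2 * cfu u 5) ∧ hf u (e 0) (e 0) =
      cfu u 3 + cfu u 0 * cfu u 4 ^ 2 + cfu u 1 * cfu u 4 * cfu u 5 + cfu u 2 * cfu u 5 ^ 2 := by
  simp only [hf, eta, th, e, cfu, div_eq_mul_inv, ← inv_pow, Matrix.cons_val_zero, Matrix.cons_val_one,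
    Matrix.cons_val]
  refine ⟨?_, ?_, ?_, ?_, ?_, ?_⟩ <;> ring

lemma cfu_of_hf (h0 : u O ≠ 0) (h1 : detP u ≠ 0) (h : ∀ i j, hf u (e i) (e j) = hf u' (e i) (e j)) :
    cfu u = cfu u' := by
  obtain ⟨a0, a1, a2, a3, a4, a5⟩ := hf_cfu u
  obtain ⟨b0, b1, b2, b3, b4, b5⟩ := hf_cfu u'
  rw [h, b0] at a0
  rw [h, b1] at a1
  rw [h, b2] at a2
  rw [h, b3] at a3
  rw [h, b4] at a4
  rw [h, b5] at a5
  have a1' : cfu u' 1 = cfu u 1 := by linarith
  have d : 4 * (cfu u 0 * cfu u 2) - cfu u 1 ^ 2 ≠ 0 := by rw [cfu_det h1]; positivity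
  simp only [a0, a1', a2] at a3 a4 a5
  have e4 : cfu u 4 = cfu u' 4 := mul_left_cancel₀ d (by
    linear_combination 4 * cfu u 2 * a3 - 2 * cfu u 1 * a4)
  have e5 : cfu u 5 = cfu u' 5 := mul_left_cancel₀ d (by
    linear_combination 4 * cfu u 0 * a4 - 2 * cfu u 1 * a3)
  rw [← e4, ← e5] at a5
  funext i
  rcases i with _ | _ | _ | _ | _ | _ | i
  exacts [a0.symm, a1'.symm, a2.symm, by linarith, e4, e5, rfl]

/-- The rotated frame. -/
def Rt (R : R4) (u : Ix → ℝ) : Ix → ℝ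
  | .O => u O
  | .b1 => u b1
  | .b2 => u b2
  | .P11 => R.1 * u P11 + R.2.1 * u P21
  | .P12 => R.1 * u P12 + R.2.1 * u P22
  | .P21 => R.2.2.1 * u P11 + R.2.2.2 * u P21
  | .P22 => R.2.2.1 * u P12 + R.2.2.2 * u P22
  | _ => 0

def Orth (R : R4) : Prop := R.1 ^ 2 + R.2.2.1 ^ 2 = 1 ∧ R.1 * R.2.1 + R.2.2.1 * R.2.2.2 = 0 ∧
  R.2.1 ^ 2 + R.2.2.2 ^ 2 = 1

/-- The rotation from the frame of u' to the frame of u. -/
def Ro (u u' : Ix → ℝ) : R4 :=
  ((u P11 * u' P22 - u P12 * u' P21) / detP u', (u P12 * u' P11 - u P11 * u' P12) / detP u',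
    (u P21 * u' P22 - u P22 * u' P21) / detP u', (u P22 * u' P11 - u P21 * u' P12) / detP u')

lemma det_Rt (h : Orth R) (u : Ix → ℝ) : detP (Rt R u) ^ 2 = detP u ^ 2 := by
  obtain ⟨h1, h2, h3⟩ := h
  simp only [detP, Rt]
  linear_combination (u P11 * u P22 - u P12 * u P21) ^ 2 * ((R.2.1 ^ 2 + R.2.2.2 ^ 2) * h1 + h3 -
    (R.1 * R.2.1 + R.2.2.1 * R.2.2.2) * h2)

lemma cfu_Rt (h : Orth R) (u : Ix → ℝ) : cfu (Rt R u) = cfu u := by
  have d := det_Rt h u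
  obtain ⟨h1, h2, h3⟩ := h
  funext i
  rcases i with _ | _ | _ | _ | _ | _ | i <;> simp only [cfu, d] <;> simp only [Rt]
  · congr 2
    linear_combination u P12 ^ 2 * h1 + 2 * u P12 * u P22 * h2 + u P22 ^ 2 * h3
  · congr 2
    linear_combination u P11 * u P12 * h1 + (u P11 * u P22 + u P12 * u P21) * h2 + u P21 * u P22 * h3
  · congr 2
    linear_combination u P11 ^ 2 * h1 + 2 * u P11 * u P21 * h2 + u P21 ^ 2 * h3

lemma of_cfu (h0 : 0 < u O) (h1 : detP u ≠ 0) (h0' : 0 < u' O) (h1' : detP u' ≠ 0)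
    (h : cfu u = cfu u') : Orth (Ro u u') ∧ ∀ i ∈ [O, b1, b2, P11, P12, P21, P22],
      u i = Rt (Ro u u') u' i := by
  have e3 : u O = u' O := (pow_left_inj₀ h0.le h0'.le two_ne_zero).1 (congrFun h 3)
  have d := cfu_det h1
  rw [h, cfu_det h1', e3, div_eq_div_iff (by positivity) (by positivity)] at d
  replace d := mul_left_cancel₀ (by positivity) d
  have e0 := congrFun h 0
  have e1 := congrFun h 1
  have e2 := congrFun h 2
  simp only [cfu, e3, d, div_left_inj' (pow_ne_zero 2 h1')] at e0 e1 e2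
  replace e0 := mul_left_cancel₀ (by positivity) e0
  replace e1 := mul_left_cancel₀ (by positivity) e1
  replace e2 := mul_left_cancel₀ (by positivity) e2
  have e4 : u b1 / 2 = u' b1 / 2 := congrFun h 4
  have e5 : u b2 / 2 = u' b2 / 2 := congrFun h 5
  refine ⟨⟨?_, ?_, ?_⟩, ?_⟩
  · simp only [Ro]
    field_simp
    rw [detP]
    linear_combination u' P22 ^ 2 * e2 - 2 * u' P22 * u' P21 * e1 + u' P21 ^ 2 * e0
  · simp only [Ro]
    field_simp
    linear_combination -(u' P22 * u' P12 * e2) + (u' P11 * u' P22 + u' P12 * u' P21) * e1 -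
      u' P21 * u' P11 * e0
  · simp only [Ro]
    field_simp
    rw [detP]
    linear_combination u' P12 ^ 2 * e2 - 2 * u' P11 * u' P12 * e1 + u' P11 ^ 2 * e0
  · simp only [List.forall_mem_cons, Rt, Ro]
    refine ⟨e3, by linarith, by linarith, ?_, ?_, ?_, ?_, by simp⟩ <;> field_simp <;> rw [detP] <;> ring

/-- A smooth solution of all structure equations on D. -/
def Fu (U : R4 → Ix → ℝ) (D : Set R4) : Prop :=
  SmU U D ∧ ∀ p ∈ D, 0 < U p O ∧ detP (U p) ≠ 0 ∧ Full (U p) (dfr U p)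

lemma Fu.mono {A : Set R4} (h : Fu U D) (k : A ⊆ D) : Fu U A :=
  ⟨fun i => (h.1 i).mono k, fun p hp => h.2 p (k hp)⟩

lemma Fu.dif (h : Fu U D) (hD : IsOpen D) (hp : p ∈ D) (i : Ix) : DifferentiableAt ℝ (fun z => U z i) p :=
  ((h.1 i).contDiffAt (hD.mem_nhds hp)).differentiableAt (by simp)

lemma Fu.vac (h : Fu U D) (hD : IsOpen D) :
    (∀ p ∈ D, IsConn (met U) (con U) p) ∧ Vac (met U) D ∧ Met (met U) D :=
  have := vac_of_full P354Q.vac hD h.1 fun p hp => ⟨(h.2 p hp).1.ne', (h.2 p hp).2⟩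
  ⟨this.1, this.2, met_Met h.1 fun p hp => ⟨(h.2 p hp).1.ne', (h.2 p hp).2.1⟩⟩

/-- The rotated fields. -/
def Ur (R : R4 → R4) (W : R4 → Ix → ℝ) (p : R4) : Ix → ℝ := Rt (R p) (W p)

lemma br_Ur {R : R4 → R4} (hR : ∀ t, R (p.1 + t, p.2.1 - t, p.2.2) = R p) (ho : Orth (R p))
    (hW : ∀ i, DifferentiableAt ℝ (fun z => W z i) p)
    (hU : ∀ i, DifferentiableAt ℝ (fun z => Ur R W z i) p) (hF : Full (W p) (dfr W p)) :
    br (Ur R W p) (dfr (Ur R W) p) 1 2 3 = br (Ur R W p) (dfr (Ur R W) p) 1 3 2 := by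
  have k : ∀ j, HasDerivAt (fun t : ℝ => W (p.1 + t, p.2.1 - t, p.2.2) j) (dfr W p 1 j) 0 :=
    fun j => by
      have := has_n (p := p) (t := 0) (f := fun z => W z j) (by simpa using hW j)
      simp only [add_zero, sub_zero] at this
      exact this
  have d : ∀ i, dfr (Ur R W) p 1 i = Rt (R p) (dfr W p 1) i := fun i => by
    refine fd_n (hU i) ?_
    simp only [Ur, hR]
    cases i <;> simp only [Rt] <;> first
      | exact hasDerivAt_const _ _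
      | exact k _
      | exact ((k _).const_mul _).add ((k _).const_mul _)
  have e0 := full_sym hF
  have e1 := hF.eqN P11
  have e2 := hF.eqN P12
  have e3 := hF.eqN P21
  have e4 := hF.eqN P22
  simp [resN, cN, angS, angN, linS, linN, quadS, quadN] at e1 e2 e3 e4
  simp only [br, th, vec, dEof, Matrix.cons_val_zero, Matrix.cons_val_one, Matrix.cons_val,
    d, Ur, Rt, sub_zero, add_zero, zero_div, mul_zero]
  congr 1
  rw [eq_neg_of_add_eq_zero_left e1, eq_neg_of_add_eq_zero_left e2, eq_neg_of_add_eq_zero_left e3,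
    eq_neg_of_add_eq_zero_left e4, e0]
  obtain ⟨h1, h2, h3⟩ := ho
  linear_combination -2 * (W p P11 * W p P22 - W p P12 * W p P21) * (W p Y21 * (h1 - h3) +
    (W p Y22 - W p Y11) * h2)

theorem rotated {R : R4 → R4} (hD : IsOpen D) (h : Fu W D) (hR : ContDiffOn ℝ ∞ R D)
    (hn : ∀ (p : R4) t, R (p.1 + t, p.2.1 - t, p.2.2) = R p) (ho : ∀ p ∈ D, Orth (R p)) :
    Fu (L2 (Ur R W)) D ∧ ∀ p ∈ D, cfu (L2 (Ur R W) p) = cfu (W p) := by
  have s : ∀ i, ContDiffOn ℝ ∞ (fun z => Ur R W z i) D := fun i => by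
    have k : ∀ i, ContDiffOn ℝ ∞ (fun z => W z i) D := h.1
    cases i <;> simp only [Ur, Rt] <;> fun_prop
  have d : ∀ p ∈ D, detP (Ur R W p) ≠ 0 := fun p hp e => pow_ne_zero 2 (h.2 p hp).2.1 (by
    rw [← det_Rt (ho p hp), ← Ur, e, zero_pow two_ne_zero])
  obtain ⟨-, k1, k3, -, k4⟩ := P354Q.conv (Ur R W) D hD (fun i _ => s i) fun p hp =>
    ⟨d p hp, (h.2 p hp).1.ne', br_Ur (hn p) (ho p hp) (h.dif hD hp)
      (fun i => ((s i).contDiffAt (hD.mem_nhds hp)).differentiableAt (by simp)) (h.2 p hp).2.2⟩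
  obtain ⟨G, hG⟩ := k2.2.1 id (met (Ur R W)) D _ _ ⟨hD, hD, (h.vac hD).2.2, contDiffOn_id,
    mapsTo_id _, fun p _ => by rw [fderiv_id]; exact Function.injective_id, fun p hp a b => by
      rw [fderiv_id, met_cfu (U := Ur R W) (V := W) (cfu_Rt (ho p hp) _)]; rfl⟩ (h.vac hD).2.1
  exact ⟨⟨k1, fun p hp => ⟨(h.2 p hp).1, d p hp, k4 G hG p hp⟩⟩, fun p hp =>
    Eq.trans (b := cfu (Rt (R p) (W p))) rfl (cfu_Rt (ho p hp) _)⟩

/-- The same induced data. -/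
def Ag (u u' : Ix → ℝ) : Prop :=
  ∀ i j, hf u (e i) (e j) = hf u' (e i) (e j) ∧ Kf u (e i) (e j) = Kf u' (e i) (e j)

lemma ag_of (hD : IsOpen D) (hU : Fu U D) (hV : Fu V D) (h : ∀ p ∈ D, cfu (U p) = cfu (V p))
    (hp : p ∈ D) : Ag (U p) (V p) := fun i j => by
  refine ⟨congrFun (congrFun (met_cfu (h p hp)) (0, e i)) (0, e j), ?_⟩
  obtain ⟨-, k⟩ := of_cfu (hU.2 p hp).1 (hU.2 p hp).2.1 (hV.2 p hp).1 (hV.2 p hp).2.1 (h p hp)
  have n : nU (U p) = nU (V p) := by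
    simp only [nU, fr, E, k O (by simp), k b1 (by simp), k b2 (by simp), Rt, Matrix.cons_val_zero,
      Matrix.cons_val_one]
  have c : ∀ a b c, P354n.deriv (fun z => met U z b c) p a = P354n.deriv (fun z => met V z b c) p a :=
    fun a b c => EventuallyEq.lineDeriv_eq (eventually_of_mem (hD.mem_nhds hp) fun z hz => by
      simp only [met_cfu (h z hz)])
  rw [← ((P354J.ind U p (hU.2 p hp).2.1 (hU.2 p hp).1.ne').2 _ _).2.2.2,
    ← ((P354J.ind V p (hV.2 p hp).2.1 (hV.2 p hp).1.ne').2 _ _).2.2.2, (hU.vac hD).2.2.symm p hp,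
    (hV.vac hD).2.2.symm p hp, ← conn_chr ((hU.vac hD).1 p hp), ← conn_chr ((hV.vac hD).1 p hp), n]
  simp only [chr, c]

/-- The point of the slice on the line of direction n. -/
def pr (t : ℝ) (p : R4) : R4 := (t, p.1 - t + p.2.1, p.2.2)

/-- V in the frame which agrees with the frame of U at the time t. -/
def Wr (U V : R4 → Ix → ℝ) (t : ℝ) : R4 → Ix → ℝ :=
  L2 (Ur (fun p => Ro (U (pr t p)) (V (pr t p))) V)

lemma wr {A : Set R4} {t : ℝ} (hD : IsOpen D) (hV : Fu V D) (hU : Fu U A) (hV' : Fu V A)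
    (hm : MapsTo (pr t) D A) (h : ∀ p ∈ D, Ag (U (pr t p)) (V (pr t p))) :
    Fu (Wr U V t) D ∧ ∀ p ∈ D, cfu (Wr U V t p) = cfu (V p) := by
  refine rotated hD hV ?_ (fun p s => ?_) fun p hp => (of_cfu (hU.2 _ (hm hp)).1 (hU.2 _ (hm hp)).2.1
    (hV'.2 _ (hm hp)).1 (hV'.2 _ (hm hp)).2.1 (cfu_of_hf (hU.2 _ (hm hp)).1.ne' (hU.2 _ (hm hp)).2.1
      fun i j => (h p hp i j).1)).1
  · have s : ContDiffOn ℝ ∞ (pr t) D := by unfold pr; fun_prop
    have k1 : ∀ i, ContDiffOn ℝ ∞ (fun z => U (pr t z) i) D := fun i => (hU.1 i).comp s hm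
    have k2 : ∀ i, ContDiffOn ℝ ∞ (fun z => V (pr t z) i) D := fun i => (hV'.1 i).comp s hm
    have k3 : ∀ p ∈ D, detP (V (pr t p)) ≠ 0 := fun p hp => (hV'.2 _ (hm hp)).2.1
    have k4 := ((k2 P11).mul (k2 P22)).sub ((k2 P12).mul (k2 P21))
    have q := fun i j k l => (((k1 i).mul (k2 j)).sub ((k1 k).mul (k2 l))).div k4 k3
    exact (q _ _ _ _).prodMk ((q _ _ _ _).prodMk ((q _ _ _ _).prodMk (q _ _ _ _)))
  · rw [show pr t (p.1 + s, p.2.1 - s, p.2.2) = pr t p from Prod.ext rfl (Prod.ext (by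
      simp only [pr]; ring) rfl)]

lemma wr_slice {t : ℝ} (hD : IsOpen D) (hU : Fu U D) (hV : Fu V D) (hW : Fu (Wr U V t) D)
    (hc : ∀ p ∈ D, cfu (Wr U V t p) = cfu (V p)) (h : ∀ z, (t, z) ∈ D → Ag (U (t, z)) (V (t, z)))
    {z : X3} (hz : (t, z) ∈ D) : U (t, z) = Wr U V t (t, z) := by
  have ds : ∀ {W : R4 → Ix → ℝ}, Fu W D → ∀ y, (t, y) ∈ D → Constr (sl W t y) (dsl (sl W t) y) :=
    fun k y hy => (P354J.dslThm _ t y (k.dif hD hy)).1 (Full.constr (k.2 _ hy).2.2)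
  refine P354J.uq (sl U t) (sl (Wr U V t) t) {y | (t, y) ∈ D} (hD.preimage (by fun_prop))
    (fun y hy => ⟨(hU.2 _ hy).2.1, (hU.2 _ hy).1.ne', ds hU y hy, ds hW y hy, fun i hi => ?_,
      fun a b => (h y hy a b).2.trans (ag_of hD hW hV hc hy a b).2.symm⟩) z hz
  have := (of_cfu (hU.2 _ hy).1 (hU.2 _ hy).2.1 (hV.2 _ hy).1 (hV.2 _ hy).2.1 (cfu_of_hf
    (hU.2 _ hy).1.ne' (hU.2 _ hy).2.1 fun i j => (h y hy i j).1)).2 i hi
  rw [show Ro (U (t, y)) (V (t, y)) = Ro (U (pr t (t, y))) (V (pr t (t, y))) by simp [pr]] at this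
  simp only [List.mem_cons, List.not_mem_nil, or_false] at hi
  rcases hi with rfl | rfl | rfl | rfl | rfl | rfl | rfl <;> exact this

end Vale.Agent.P354GT
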