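import Vale.Agent.P354GT.Rot

/-!
Uniqueness on a strip.
-/

open scoped ContDiff
open Set Filter Topology

noncomputable section

namespace Vale.Agent.P354GT

open Vale.Agent.P354n (R4 c1 c2)
open Vale.Agent.P354C Vale.Agent.P354C.Ix
open Vale.Agent.P354H (X3 e)
open Vale.Agent.P354J (hf Kf)
open Vale.Agent.P354P
open Vale.Agent.P354I (Strip r2 IndAt UNQ)

variable {U V W : R4 → Ix → ℝ} {D : Set R4} {s t N ρ cb T a b : ℝ}

lemma cpt (t T N : ℝ) (hρ : ρ ≤ 9) {S : Set R4} (hS : IsClosed S)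
    (h : ∀ p ∈ S, |p.1 - t| ≤ T ∧ |p.2.1| ≤ N ∧ rr p ≤ ρ) : IsCompact S := by
  refine (isCompact_Icc (a := (t - T, -N, -3, -3)) (b := (t + T, N, 3, 3))).of_isClosed_subset hS
    fun p hp => ?_
  obtain ⟨k1, k3, k2⟩ := h p hp
  have r : p.2.2.1 ^ 2 + p.2.2.2 ^ 2 ≤ 9 := k2.trans hρ
  have r1 := abs_le.1 (abs_le_of_sq_le_sq (a := p.2.2.1) (b := 3) (by nlinarith) (by norm_num))
  have r2 := abs_le.1 (abs_le_of_sq_le_sq (a := p.2.2.2) (b := 3) (by nlinarith) (by norm_num))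
  exact ⟨⟨by linarith [(abs_le.1 k1).1], (abs_le.1 k3).1, r1.1, r2.1⟩, by linarith [(abs_le.1 k1).2],
    (abs_le.1 k3).2, r1.2, r2.2⟩

lemma lens_uq (hD : IsOpen D) (hU : Fu U D) (hW : Fu W D) (hs : s = 1 ∨ s = -1) (hρ : ρ ≤ 9)
    (c0 : 0 ≤ cb) (hb : ∀ p : R4, s * (p.1 - t) ∈ Icc 0 T → |p.2.1| ≤ N - s * (p.1 - t) → rr p ≤ ρ →
      p ∈ D ∧ ∀ i, |U p i| ≤ cb) (h0 : ∀ z, (t, z) ∈ D → U (t, z) = W (t, z)) {q : R4}
    (q1 : s * (q.1 - t) ∈ Icc 0 T) (q2 : |q.2.1| < N - s * (q.1 - t))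
    (q3 : rr q + 24 * cb * (s * (q.1 - t)) < ρ) : U q = W q := by
  let G : ℝ → ℝ → ℝ → ℝ → R4 → ℝ := fun k l m c p =>
    k * (p.2.2.1 ^ 2 + p.2.2.2 ^ 2) + l * p.2.1 + m * (s * (p.1 - t)) - c
  have dG : ∀ k l m c p v, fderiv ℝ (G k l m c) p v =
      k * (2 * p.2.2.1 * v.2.2.1 + 2 * p.2.2.2 * v.2.2.2) + l * v.2.1 + m * (s * v.1) :=
    fun k l m c p v => by
      have i := hasFDerivAt_id (𝕜 := ℝ) p
      rw [HasFDerivAt.fderiv (f := G k l m c) ((((((i.snd.snd.fst.pow 2).add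
        (i.snd.snd.snd.pow 2)).const_mul k).add (i.snd.fst.const_mul l)).add
        (((i.fst.sub_const t).const_mul s).const_mul m)).sub_const c)]
      simp
      ring
  have m : ∀ p : R4, s * (p.1 - t) ∈ Icc 0 T →
      (∀ i, ![G 0 1 1 N, G 0 (-1) 1 N, G 1 0 (24 * cb) ρ] i p < 0) →
      |p.2.1| ≤ N - s * (p.1 - t) ∧ rr p ≤ ρ := fun p hp k => by
    have k0 : G 0 1 1 N p < 0 := k 0
    have k1 : G 0 (-1) 1 N p < 0 := k 1
    have k2 : G 1 0 (24 * cb) ρ p < 0 := k 2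
    simp only [G] at k0 k1 k2
    exact ⟨abs_le.2 ⟨by linarith, by linarith⟩, by
      simp only [rr, c1, c2]; nlinarith [mul_nonneg c0 hp.1]⟩
  refine P354CU.uni U W _ ![G 0 1 1 N, G 0 (-1) 1 N, G 1 0 (24 * cb) ρ] D
    {p | s * (p.1 - t) ∈ Icc 0 T ∧ |p.2.1| ≤ N - s * (p.1 - t) ∧ rr p ≤ ρ} s t T hs hD
    (cpt t T N hρ ((isClosed_Icc.preimage (by fun_prop)).and ((isClosed_le (by fun_prop)
      (by fun_prop)).and (isClosed_le rr_smooth.continuous continuous_const))) fun p hp =>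
        ⟨?_, hp.2.1.trans (sub_le_self _ hp.1.1), hp.2.2⟩) (fun p hp => (hb p hp.1 hp.2.1 hp.2.2).1)
    hU.1 hW.1 (fun i => ?_) (fun p hp k => ?_) (fun p hp k => ?_) q q1 fun i => ?_
  · rcases hs with rfl | rfl <;> exact abs_le.2 ⟨by linarith [hp.1.1, hp.1.2], by linarith [hp.1.1, hp.1.2]⟩
  · fin_cases i <;> simp only [G, Fin.zero_eta, Fin.mk_one, Fin.reduceFinMk, Matrix.cons_val_zero,
      Matrix.cons_val_one, Matrix.cons_val] <;> fun_prop
  · obtain ⟨m1, m2⟩ := m p hp k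
    obtain ⟨h1, h2⟩ := hb p hp m1 m2
    refine ⟨⟨hp, m1, m2⟩, Full.solves (hU.2 p h1).2.2, Full.solves (hW.2 p h1).2.2, fun i => ?_⟩
    have r : p.2.2.1 ^ 2 + p.2.2.2 ^ 2 ≤ 9 := m2.trans hρ
    have e0 := abs_le.1 (abs_lin r (h2 b1) (h2 b2))
    have e2 := sq_le_sq' (abs_le.1 (abs_lin r (h2 P11) (h2 P12))).1
      (abs_le.1 (abs_lin r (h2 P11) (h2 P12))).2
    have e3 := sq_le_sq' (abs_le.1 (abs_lin r (h2 P21) (h2 P22))).1
      (abs_le.1 (abs_lin r (h2 P21) (h2 P22))).2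
    fin_cases i <;> simp only [Causal, dG, fr, vec, E, Fin.zero_eta, Fin.mk_one, Fin.reduceFinMk,
      Matrix.cons_val_zero, Matrix.cons_val_one, Matrix.cons_val] <;> rcases hs with rfl | rfl <;>
      refine ⟨by linarith [e0.1, e0.2], by linarith, by nlinarith [e0.1, e0.2]⟩
  · obtain ⟨t', z⟩ := p
    obtain rfl : t' = t := hp
    have z0 : s * (t' - t') ∈ Icc 0 T := by simpa using q1.1.trans q1.2
    exact h0 z (hb _ z0 (m _ z0 k).1 (m _ z0 k).2).1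
  · have := abs_lt.1 q2
    fin_cases i
    · show G 0 1 1 N q < 0
      simp only [G]; linarith [this.2]
    · show G 0 (-1) 1 N q < 0
      simp only [G]; linarith [this.1]
    · show G 1 0 (24 * cb) ρ q < 0
      simp only [G, rr, c1, c2] at q3 ⊢; linarith

/-- The strip in one chart. -/
def St (a b : ℝ) : Set R4 := {p | p.1 ∈ Ioo a b ∧ rr p < 4}

lemma isOpen_St (a b : ℝ) : IsOpen (St a b) :=
  (isOpen_Ioo.preimage continuous_fst).and (isOpen_lt rr_smooth.continuous continuous_const)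

lemma step (hU : Fu U (St a b)) (hV : Fu V (St a b)) (ht : t ∈ Ioo a b) (hρ : ρ < 4)
    (h : ∀ z, r2 z < 4 → |z.1| < N → Ag (U (t, z)) (V (t, z))) : ∃ T > 0, ∀ q : R4, |q.1 - t| < T →
      |q.2.1| < N - |q.1 - t| → rr q < ρ → U q = Wr U V t q ∧ cfu (U q) = cfu (V q) := by
  obtain ⟨ε, ε0, hε⟩ := Metric.nhds_basis_closedBall.mem_iff.1 (Ioo_mem_nhds ht.1 ht.2)
  have hK : IsCompact {p : R4 | |p.1 - t| ≤ ε ∧ |p.2.1| ≤ N ∧ rr p ≤ (ρ + 4) / 2} :=
    cpt t ε N (by linarith) ((isClosed_le (by fun_prop) continuous_const).and ((isClosed_le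
      (by fun_prop) continuous_const).and (isClosed_le rr_smooth.continuous continuous_const)))
      fun _ => id
  have sub : ∀ p : R4, |p.1 - t| ≤ ε → rr p ≤ (ρ + 4) / 2 → p ∈ St a b := fun p h1 h2 =>
    ⟨hε h1, by linarith⟩
  obtain ⟨cb, hb⟩ := hK.exists_bound_of_continuousOn (continuousOn_pi.2 fun i =>
    (hU.1 i).continuousOn.mono fun p hp => sub p hp.1 hp.2.2)
  have o : IsOpen {p ∈ St a b | |p.1 - t + p.2.1| < N} :=
    (isOpen_St a b).and (isOpen_lt (by fun_prop) continuous_const)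
  have hU' := hU.mono (sep_subset _ fun p => |p.1 - t + p.2.1| < N)
  have hV' := hV.mono (sep_subset _ fun p => |p.1 - t + p.2.1| < N)
  obtain ⟨hW, hc⟩ := wr (t := t) o hV' hU hV (fun p hp => ⟨ht, hp.1.2⟩) fun p hp => h _ hp.1.2 hp.2
  have c0 := abs_nonneg cb
  refine ⟨min ε ((4 - ρ) / (48 * |cb| + 1)), lt_min ε0 (div_pos (by linarith) (by positivity)),
    fun q q1 q2 q3 => ?_⟩
  obtain ⟨q0, q1⟩ := lt_min_iff.1 q1
  rw [lt_div_iff₀ (by positivity)] at q1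
  obtain ⟨s, hs, e⟩ : ∃ s : ℝ, (s = 1 ∨ s = -1) ∧ s * (q.1 - t) = |q.1 - t| := by
    rcases abs_choice (q.1 - t) with k | k
    exacts [⟨1, .inl rfl, by linarith⟩, ⟨-1, .inr rfl, by linarith⟩]
  obtain ⟨N', n1, n2⟩ := exists_between (lt_sub_iff_add_lt.1 q2)
  have k := abs_nonneg (q.1 - t)
  have key : U q = Wr U V t q := by
    refine lens_uq (N := N') (T := ε) (ρ := (ρ + 4) / 2) o hU' hW hs (by linarith) c0
      (fun p p1 p2 p3 => ?_) (fun z hz => wr_slice o hU' hV' hW hc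
        (fun z hz => h z hz.1.2 (by simpa using hz.2)) hz) (e ▸ ⟨k, q0.le⟩) (by linarith) (by nlinarith)
    have e1 : |p.1 - t| = s * (p.1 - t) := by
      rcases hs with rfl | rfl
      exacts [by rw [abs_of_nonneg (by linarith [p1.1]), one_mul],
        by rw [abs_of_nonpos (by linarith [p1.1]), neg_one_mul]]
    exact ⟨⟨sub p (e1 ▸ p1.2) p3, (abs_add_le _ _).trans_lt (by linarith)⟩, fun i =>
      ((norm_le_pi_norm (U p) i).trans (hb p ⟨e1 ▸ p1.2, by linarith [p1.1], p3⟩)).trans (le_abs_self _)⟩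
  exact ⟨key, key ▸ hc q ⟨sub q q0.le (by linarith), (abs_add_le _ _).trans_lt (by linarith)⟩⟩

lemma cont_hK {u : Ix → ℝ} (h : detP u ≠ 0) (a b : X3) :
    ContinuousAt (fun u => hf u a b) u ∧ ContinuousAt (fun u => Kf u a b) u := by
  have k : ∀ a k, ContinuousAt (fun u => th u a k) u := fun a k => by
    simp only [detP] at h
    fin_cases k <;> simp only [th, detP, Fin.zero_eta, Fin.mk_one, Fin.reduceFinMk, Matrix.cons_val_zero,
      Matrix.cons_val_one, Matrix.cons_val] <;> fun_prop (disch := exact h)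
  have g : ∀ i j k, Continuous fun u : Ix → ℝ => Gam u i j k := fun i j k =>
    (IsLinearMap.mk' _ (P354Q.gam_lin i j k)).continuous_of_finiteDimensional
  have o : ContinuousAt (fun u : Ix → ℝ => u O) u := (continuous_apply O).continuousAt
  exact ⟨(o.pow 2).mul (((continuousAt_const.mul (((k _ 0).mul (k _ 1)).add
    ((k _ 1).mul (k _ 0)))).neg.add ((k _ 2).mul (k _ 2))).add ((k _ 3).mul (k _ 3))),
    o.mul (tendsto_finsetSum _ fun i _ => tendsto_finsetSum _ fun j _ =>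
      ((k _ i).mul ((g i 0 j).add (g i 1 j)).continuousAt).mul (k _ j))⟩

variable {U V : Bool → R4 → Ix → ℝ}

lemma fu (h : Strip a b U) (σ : Bool) : Fu (U σ) (St a b) :=
  ⟨h.sm σ, fun p hp => h.full σ p hp.1 hp.2⟩

/-- Two solutions with the same data at one time have the same data at all times. -/
theorem gu (hU : Strip a b U) (hV : Strip a b V) (ht : t ∈ Ioo a b)
    (h : ∀ σ z, r2 z < 4 → Ag (U σ (t, z)) (V σ (t, z))) {t' : ℝ} (ht' : t' ∈ Ioo a b) (σ : Bool)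
    {z : X3} (hz : r2 z < 4) : Ag (U σ (t', z)) (V σ (t', z)) := by
  obtain ⟨s, r1, hs, r0, rfl⟩ : ∃ s r : ℝ, (s = 1 ∨ s = -1) ∧ 0 ≤ r ∧ t' = t + s * r := by
    rcases le_total t t' with k | k
    exacts [⟨1, t' - t, .inl rfl, by linarith, by ring⟩, ⟨-1, t - t', .inr rfl, by linarith, by ring⟩]
  have m : ∀ r ∈ Icc 0 r1, t + s * r ∈ Ioo a b := fun r hr => by
    rcases hs with rfl | rfl <;> exact ⟨by linarith [hr.1, hr.2, ht.1, ht'.1],
      by linarith [hr.1, hr.2, ht.2, ht'.2]⟩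
  generalize hN : |z.1| + r1 + 1 = N
  refine IsClosed.Icc_subset_of_forall_mem_nhdsWithin (a := 0) (b := r1) (s := {r | ∀ σ z, r2 z < 4 →
    |z.1| < N - r → Ag (U σ (t + s * r, z)) (V σ (t + s * r, z))})
    (isClosed_iff_frequently.2 fun r hr => ?_) (fun σ z hz _ => by simpa using h σ z hz)
    (fun r hr => ?_) ⟨r0, le_rfl⟩ σ z hz (by linarith)
  · have r' := isClosed_iff_frequently.1 isClosed_Icc r (hr.mono fun _ k => k.2)
    refine ⟨fun σ z hz k i j => ?_, r'⟩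
    have c : ∀ {W : R4 → Ix → ℝ}, Fu W (St a b) →
        ContinuousAt (fun r => hf (W (t + s * r, z)) (e i) (e j)) r ∧
        ContinuousAt (fun r => Kf (W (t + s * r, z)) (e i) (e j)) r := fun {W} hW => by
      have c1 : ContinuousAt (fun r => W (t + s * r, z)) r := continuousAt_pi.2 fun i =>
        (hW.dif (p := (t + s * r, z)) (isOpen_St a b) ⟨m r r', hz⟩ i).continuousAt.comp
          (f := fun r => ((t + s * r, z) : R4)) (by fun_prop)
      have c2 := cont_hK (hW.2 (t + s * r, z) ⟨m r r', hz⟩).2.1 (e i) (e j)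
      exact ⟨c2.1.comp (f := fun r => W (t + s * r, z)) c1, c2.2.comp (f := fun r => W (t + s * r, z)) c1⟩
    have f := (hr.and_eventually (continuousAt_const.eventually_lt (f := fun _ => |z.1|)
      (g := fun r => N - r) (by fun_prop) k)).mono fun y hy => hy.1.1 σ z hz hy.2 i j
    exact ⟨tendsto_nhds_unique_of_frequently_eq (c (fu hU σ)).1 (c (fu hV σ)).1 (f.mono fun _ k => k.1),
      tendsto_nhds_unique_of_frequently_eq (c (fu hU σ)).2 (c (fu hV σ)).2 (f.mono fun _ k => k.2)⟩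
  have t0 := m r (Ico_subset_Icc_self hr.2)
  choose T T0 hT using fun σ => step (ρ := 2) (fu hU σ) (fu hV σ) t0 (by norm_num) (hr.1 σ)
  have o : IsOpen {p ∈ St a b | |p.1 - (t + s * r)| < min (T true) (T false) ∧
      |p.2.1| < N - r - |p.1 - (t + s * r)|} := (isOpen_St a b).and
    ((isOpen_lt (by fun_prop) continuous_const).and (isOpen_lt (by fun_prop) (by fun_prop)))
  have le : ∀ σ, min (T true) (T false) ≤ T σ := fun σ => by cases σ <;> simp
  filter_upwards [Ioo_mem_nhdsGT (lt_min hr.2.2 (lt_add_of_pos_right r (lt_min (T0 true) (T0 false))))]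
    with r' k σ z hz k'
  obtain ⟨k1, k2⟩ := lt_min_iff.1 k.2
  have e1 : |t + s * r' - (t + s * r)| = r' - r := by
    rw [show t + s * r' - (t + s * r) = s * (r' - r) by ring, abs_mul, abs_of_pos (sub_pos.2 k.1)]
    rcases hs with rfl | rfl <;> simp
  refine ag_of o ((fu hU σ).mono (sep_subset _ _)) ((fu hV σ).mono (sep_subset _ _)) (fun p hp => ?_)
    ⟨⟨m r' ⟨hr.2.1.trans k.1.le, k1.le⟩, hz⟩, by simp only [e1]; linarith, by simp only [e1]; linarith⟩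
  rcases lt_or_ge (rr p) 2 with w | w
  · exact (hT σ p (hp.2.1.trans_le (le σ)) hp.2.2 w).2
  have := met_cfu (hT (!σ) (flip p) (hp.2.1.trans_le (le _)) hp.2.2 (by
    rw [rr_flip, inv_lt_comm₀ (by linarith) two_pos]; linarith)).2
  refine cfu_of_hf ((fu hU σ).2 p hp.1).1.ne' ((fu hU σ).2 p hp.1).2.1 fun i j => ?_
  exact (hU.compat σ p hp.1.1 hp.1.2 (by linarith) (0, e i) (0, e j)).trans
    (this ▸ (hV.compat σ p hp.1.1 hp.1.2 (by linarith) (0, e i) (0, e j)).symm)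

lemma mono (h : Strip a b U) {a' b' : ℝ} (ha : a ≤ a') (hb : b' ≤ b) : Strip a' b' U :=
  ⟨fun σ i => (h.sm σ i).mono fun _ k => ⟨Ioo_subset_Ioo ha hb k.1, k.2⟩,
    fun σ p k => h.full σ p (Ioo_subset_Ioo ha hb k), fun σ p k => h.compat σ p (Ioo_subset_Ioo ha hb k)⟩

lemma ag_ind {d : P354I.Dat} (hU : IndAt U t d) (hV : IndAt V t d) (σ : Bool) (z : X3) (hz : r2 z < 4) :
    Ag (U σ (t, z)) (V σ (t, z)) := fun i j =>
  ⟨(hU σ z hz i j).1.trans (hV σ z hz i j).1.symm, (hU σ z hz i j).2.trans (hV σ z hz i j).2.symm⟩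

lemma ind_ag {d : P354I.Dat} (hV : IndAt V t d) (h : ∀ σ z, r2 z < 4 → Ag (U σ (t, z)) (V σ (t, z))) :
    IndAt U t d := fun σ z hz i j =>
  ⟨(h σ z hz i j).1.trans (hV σ z hz i j).1, (h σ z hz i j).2.trans (hV σ z hz i j).2⟩

theorem unq : UNQ := by
  rintro t d d' d'' - ⟨a, b, U, a1, a2, a3, a4, a5⟩ ⟨a', b', V, b1, b2, b3, b4, b5⟩ y hy
  simp only [lt_min_iff, max_lt_iff] at a1 a2 b1 b2
  have k := ind_ag b5 fun σ z hz => gu (mono a3 (le_max_left a a') (min_le_left b b'))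
    (mono b3 (le_max_right a a') (min_le_right b b')) ⟨max_lt a1.1 b1.1, lt_min a2.1 b2.1⟩
    (ag_ind a4 b4) ⟨max_lt a1.2 b1.2, lt_min a2.2 b2.2⟩ σ hz
  obtain ⟨σ, k1, -⟩ := exists_in 1 (jX 1 y)
  have k0 : 1 + P354E.sg σ * (dir y).1 2 ≠ 0 := k1.1
  obtain ⟨-, -, k4⟩ := (P354JK.inv σ).2 y hy (right_ne_zero_of_mul (den_dir hy ▸ k0))
  have m : rr (P354n.co (M := sp 1 fun _ _ _ => 0) (Ch.tx 1 σ) (jX 1 y)) < 4 := (mem_tgt_tx.1
    (((sp 1 fun _ _ _ => 0).toE (Ch.tx 1 σ)).map_source (on_tx.2 k1))).2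
  rw [co_jX one_pos hy] at m
  have e1 := k4 d' _ (a5 σ _ m)
  have e2 := k4 d'' _ (k σ _ m)
  exact ⟨Matrix.ext fun i j => (e1 i j).1.symm.trans (e2 i j).1,
    Matrix.ext fun i j => (e1 i j).2.symm.trans (e2 i j).2⟩

end Vale.Agent.P354GT
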